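import Vale.Agent.P267.H955.Main
import Vale.Agent.P267.H734.GluedEx
import Vale.Agent.P267.H509.CWSys

/-!
# P267: every holomorphic bundle has a parametrix whose trace density is the Riemann-Roch density
-/

set_option linter.unusedSectionVars false

open scoped Manifold ContDiff Topology ComplexConjugate Matrix
open Set Filter Metric MeasureTheory Vale.Agent.P267.FL Vale.Agent.P267.RR Vale.Agent.P267.H156

noncomputable section

namespace Vale.Agent.P267.H955

variable {X : Type*} [TopologicalSpace X] [ChartedSpace C2 X] [IsManifold 𝓘(ℂ, C2) ω X]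
  [T2Space X] [CompactSpace X] {A : FinAt X} {r : ℕ}

/-- **existence of the parametrix** -/
theorem exists_PS (B : Bun A r) :
    ∃ P : PS B, ∀ a, ∀ z ∈ A.K a, P.dens a z = 1 / (Real.pi : ℂ) ^ 2 * H509.todd B a z := by
  obtain ⟨G, hG⟩ := H734.exists_glued B
  obtain ⟨P, hP⟩ := exists_PS_of_glued G
  refine ⟨P, fun a z hz => ?_⟩
  have hO : z ∈ A.O a := by
    obtain ⟨x, hx, rfl⟩ := hz
    exact FinAt.mem_O (A.rho_supp a hx)
  rw [hP a z hz]
  have h := hG a z hO
  change trF (Fin r → ℂ) ((G.D a).Ph (z, z)) = _ at h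
  rw [h, cpi, one_div]
  push_cast
  rw [neg_mul_neg]
  rfl

end Vale.Agent.P267.H955
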